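import Vale.Agent.P365.Open.OneSite

set_option linter.all false

/-!
# P365 / H763 / Cmp: deterministic comparison of the energies of two worlds

If every `W' x` is at bounded hyperbolic distance from `W x`
(`(Re W - Re W')² + e² + e'² ≤ c e e'`, `e = -Im W`, `e' = -Im W'`), then `En A W' f ≤ c² En A W f`
for every real symmetric `A` and every real `f`.  No probability.
-/

namespace P365H763

open Complex P365L P365O Matrix
open scoped ComplexConjugate

variable {ι : Type*} [Fintype ι] [DecidableEq ι] {A : Matrix ι ι ℝ} {W W' : ι → ℂ}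

/-- energy identity for two worlds -/
theorem two_world (hA : A.IsSymm) (u v : ι → ℂ)
    (h : (Kmat A W').mulVec v = (Kmat A W).mulVec u) :
    ∑ x, ((-(W' x).im) * ‖v x‖ ^ 2 + (-(W x).im) * ‖u x‖ ^ 2) =
      ∑ x, (-(((W x - (starRingEnd ℂ) (W' x)) * ((starRingEnd ℂ) (v x) * u x)).im)) := by
  have h0 := im_quadratic (W := fun _ => (0 : ℂ)) hA (fun x => v x - u x)
  simp only [zero_im, zero_mul, Finset.sum_const_zero] at h0
  have h1 : ∀ x, (Kmat A fun _ => (0 : ℂ)).mulVec (fun x => v x - u x) x =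
      W x * u x - W' x * v x := by
    intro x
    have h2 := congrFun h x
    rw [Kmat_mulVec, Kmat_mulVec] at h2
    rw [Kmat_mulVec]
    simp only [mul_sub, Finset.sum_sub_distrib, zero_mul]
    linear_combination h2
  simp only [h1] at h0
  rw [Complex.im_sum] at h0
  rw [← sub_eq_zero, ← Finset.sum_sub_distrib, ← h0]
  refine Finset.sum_congr rfl fun x _ => ?_
  have e1 : ‖v x‖ ^ 2 = (v x).re ^ 2 + (v x).im ^ 2 := by
    rw [← Complex.normSq_eq_norm_sq, Complex.normSq_apply]; ring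
  have e2 : ‖u x‖ ^ 2 = (u x).re ^ 2 + (u x).im ^ 2 := by
    rw [← Complex.normSq_eq_norm_sq, Complex.normSq_apply]; ring
  rw [e1, e2]
  simp only [mul_im, mul_re, sub_re, sub_im, conj_re, conj_im, map_sub]
  ring

/-- **vector comparison** -/
theorem vec_cmp (hA : A.IsSymm) (hW : ∀ x, (W x).im < 0) (hW' : ∀ x, (W' x).im < 0) {c : ℝ}
    (hc : ∀ x, ((W x).re - (W' x).re) ^ 2 + (W x).im ^ 2 + (W' x).im ^ 2 ≤
      c * ((W x).im * (W' x).im)) (u v : ι → ℂ)
    (h : (Kmat A W').mulVec v = (Kmat A W).mulVec u) :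
    ∑ x, (-(W' x).im) * ‖v x‖ ^ 2 ≤ c * ∑ x, (-(W x).im) * ‖u x‖ ^ 2 := by
  have h0 := two_world hA u v h
  have h1 : ∀ x, -(((W x - (starRingEnd ℂ) (W' x)) * ((starRingEnd ℂ) (v x) * u x)).im) ≤
      1 / 2 * ((-(W' x).im) * ‖v x‖ ^ 2) + (1 / 2 * c + 1) * ((-(W x).im) * ‖u x‖ ^ 2) := by
    intro x
    have ha : 0 < -(W x).im := by linarith [hW x]
    have hb : 0 < -(W' x).im := by linarith [hW' x]
    have hcx := hc x
    have hc2 : 0 ≤ c + 2 := by
      have : 0 < (W x).im * (W' x).im := by nlinarith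
      by_contra hneg
      rw [not_le] at hneg
      nlinarith [sq_nonneg ((W x).re - (W' x).re), sq_nonneg ((W x).im), sq_nonneg ((W' x).im)]
    refine (neg_le_abs _).trans ((Complex.abs_im_le_norm _).trans ?_)
    rw [norm_mul, norm_mul, RCLike.norm_conj]
    have hn : ‖W x - (starRingEnd ℂ) (W' x)‖ ^ 2 ≤ (c + 2) * ((-(W x).im) * (-(W' x).im)) := by
      rw [← Complex.normSq_eq_norm_sq, Complex.normSq_apply]
      simp only [sub_re, sub_im, conj_re, conj_im]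
      nlinarith
    have hnn : 0 ≤ 1 / 2 * ((-(W' x).im) * ‖v x‖ ^ 2) + (1 / 2 * c + 1) *
        ((-(W x).im) * ‖u x‖ ^ 2) := by
      have : 0 ≤ 1 / 2 * c + 1 := by linarith
      positivity
    refine le_of_sq_le_sq ?_ hnn
    have h3 : (‖W x - (starRingEnd ℂ) (W' x)‖ * (‖v x‖ * ‖u x‖)) ^ 2 =
        ‖W x - (starRingEnd ℂ) (W' x)‖ ^ 2 * (‖v x‖ ^ 2 * ‖u x‖ ^ 2) := by ring
    rw [h3]
    have h4 : ‖W x - (starRingEnd ℂ) (W' x)‖ ^ 2 * (‖v x‖ ^ 2 * ‖u x‖ ^ 2) ≤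
        ((c + 2) * ((-(W x).im) * (-(W' x).im))) * (‖v x‖ ^ 2 * ‖u x‖ ^ 2) :=
      mul_le_mul_of_nonneg_right hn (by positivity)
    refine h4.trans ?_
    nlinarith [sq_nonneg (1 / 2 * ((-(W' x).im) * ‖v x‖ ^ 2) - (1 / 2 * c + 1) *
        ((-(W x).im) * ‖u x‖ ^ 2))]
  have h2 := Finset.sum_le_sum fun x (_ : x ∈ Finset.univ) => h1 x
  rw [← h0, Finset.sum_add_distrib, Finset.sum_add_distrib, ← Finset.mul_sum, ← Finset.mul_sum]
    at h2
  linarith

/-- the commutator `[f, G]` -/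
noncomputable def Cm (A : Matrix ι ι ℝ) (W : ι → ℂ) (f : ι → ℝ) : Matrix ι ι ℂ :=
  Matrix.of fun x y => ((f x - f y : ℝ) : ℂ) * Gr A W x y

theorem Cm_eq (f : ι → ℝ) : Cm A W f =
    Matrix.diagonal (fun x => (f x : ℂ)) * Gr A W - Gr A W * Matrix.diagonal (fun x => (f x : ℂ)) := by
  ext x y
  rw [Matrix.sub_apply, Matrix.diagonal_mul, Matrix.mul_diagonal, Cm, Matrix.of_apply]
  push_cast
  ring

theorem K_mul_G (hA : A.IsSymm) (hW : ∀ x, (W x).im < 0) : Kmat A W * Gr A W = 1 :=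
  Matrix.mul_nonsing_inv _ (isUnit_iff_ne_zero.2 (det_ne_zero hA hW))

theorem G_mul_K (hA : A.IsSymm) (hW : ∀ x, (W x).im < 0) : Gr A W * Kmat A W = 1 :=
  Matrix.nonsing_inv_mul _ (isUnit_iff_ne_zero.2 (det_ne_zero hA hW))

/-- `K [f, G] K = K f - f K` -/
theorem K_Cm_K (hA : A.IsSymm) (hW : ∀ x, (W x).im < 0) (f : ι → ℝ) :
    Kmat A W * Cm A W f * Kmat A W =
      Kmat A W * Matrix.diagonal (fun x => (f x : ℂ)) -
        Matrix.diagonal (fun x => (f x : ℂ)) * Kmat A W := by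
  rw [Cm_eq, Matrix.mul_sub, Matrix.sub_mul, ← Matrix.mul_assoc (Kmat A W) (Gr A W),
    K_mul_G hA hW, Matrix.one_mul, Matrix.mul_assoc (Kmat A W) _ (Kmat A W),
    Matrix.mul_assoc _ (Gr A W) (Kmat A W), G_mul_K hA hW, Matrix.mul_one]

/-- `K f - f K` does not see the potential -/
theorem comm_K (f : ι → ℝ) :
    Kmat A W * Matrix.diagonal (fun x => (f x : ℂ)) -
        Matrix.diagonal (fun x => (f x : ℂ)) * Kmat A W =
    Kmat A W' * Matrix.diagonal (fun x => (f x : ℂ)) -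
        Matrix.diagonal (fun x => (f x : ℂ)) * Kmat A W' := by
  have key : ∀ U : ι → ℂ, Kmat A U * Matrix.diagonal (fun x => (f x : ℂ)) -
        Matrix.diagonal (fun x => (f x : ℂ)) * Kmat A U =
      A.map (fun r => (r : ℂ)) * Matrix.diagonal (fun x => (f x : ℂ)) -
        Matrix.diagonal (fun x => (f x : ℂ)) * A.map (fun r => (r : ℂ)) := by
    intro U
    rw [Kmat, Matrix.add_mul, Matrix.mul_add, Matrix.diagonal_mul_diagonal,
      Matrix.diagonal_mul_diagonal]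
    have : (fun x => U x * (f x : ℂ)) = fun x => (f x : ℂ) * U x := by
      funext x
      ring
    rw [this]
    abel
  rw [key W, key W']

theorem En_eq (f : ι → ℝ) : En A W f =
    ∑ y, (-(W y).im) * ∑ x, (-(W x).im) * ‖Cm A W f x y‖ ^ 2 := by
  unfold En
  rw [Finset.sum_comm]
  refine Finset.sum_congr rfl fun y _ => ?_
  rw [Finset.mul_sum]
  refine Finset.sum_congr rfl fun x _ => ?_
  rw [Cm, Matrix.of_apply, norm_mul, mul_pow, Complex.norm_real, Real.norm_eq_abs, sq_abs, KK]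
  ring

/-- **DETERMINISTIC COMPARISON OF ENERGIES.** -/
theorem En_cmp (hA : A.IsSymm) (hW : ∀ x, (W x).im < 0) (hW' : ∀ x, (W' x).im < 0) {c : ℝ}
    (hc : ∀ x, ((W x).re - (W' x).re) ^ 2 + (W x).im ^ 2 + (W' x).im ^ 2 ≤
      c * ((W x).im * (W' x).im)) (hc0 : 0 ≤ c) (f : ι → ℝ) :
    En A W' f ≤ c ^ 2 * En A W f := by
  classical
  set M := Cm A W f with hM
  set M' := Cm A W' f with hM'
  set M1 := Gr A W' * (Kmat A W * M) with hM1
  have hKs : ∀ U : ι → ℂ, (Kmat A U)ᵀ = Kmat A U := fun U => Kmat_symm hA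
  -- first relation
  have r1 : Kmat A W' * M1 = Kmat A W * M := by
    rw [hM1, ← Matrix.mul_assoc, K_mul_G hA hW', Matrix.one_mul]
  -- second relation
  have r2 : M' * Kmat A W' = M1 * Kmat A W := by
    have e1 : Kmat A W' * (M' * Kmat A W') = Kmat A W' * (M1 * Kmat A W) := by
      rw [← Matrix.mul_assoc, K_Cm_K hA hW' f, ← Matrix.mul_assoc, r1, K_Cm_K hA hW f]
      exact comm_K f
    have e2 := congrArg (fun X => Gr A W' * X) e1
    simp only [← Matrix.mul_assoc (Gr A W') (Kmat A W'), G_mul_K hA hW', Matrix.one_mul] at e2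
    exact e2
  have col1 : ∀ y, ∑ x, (-(W' x).im) * ‖M1 x y‖ ^ 2 ≤ c * ∑ x, (-(W x).im) * ‖M x y‖ ^ 2 := by
    intro y
    refine vec_cmp hA hW hW' hc (fun x => M x y) (fun x => M1 x y) ?_
    funext x
    exact congrFun (congrFun r1 x) y
  have col2 : ∀ x, ∑ y, (-(W' y).im) * ‖M' x y‖ ^ 2 ≤ c * ∑ y, (-(W y).im) * ‖M1 x y‖ ^ 2 := by
    intro x
    refine vec_cmp hA hW hW' hc (fun y => M1 x y) (fun y => M' x y) ?_
    funext y
    have e3 := congrFun (congrFun (congrArg Matrix.transpose r2) y) x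
    rw [Matrix.transpose_mul, Matrix.transpose_mul, hKs, hKs] at e3
    exact e3
  have E1 : En A W' f = ∑ x, (-(W' x).im) * ∑ y, (-(W' y).im) * ‖M' x y‖ ^ 2 := by
    rw [En_eq, ← hM']
    simp only [Finset.mul_sum]
    rw [Finset.sum_comm]
    refine Finset.sum_congr rfl fun x _ => Finset.sum_congr rfl fun y _ => ?_
    ring
  have E2 : ∑ x, (-(W' x).im) * ∑ y, (-(W y).im) * ‖M1 x y‖ ^ 2 =
      ∑ y, (-(W y).im) * ∑ x, (-(W' x).im) * ‖M1 x y‖ ^ 2 := by
    simp only [Finset.mul_sum]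
    rw [Finset.sum_comm]
    refine Finset.sum_congr rfl fun x _ => Finset.sum_congr rfl fun y _ => ?_
    ring
  calc En A W' f = ∑ x, (-(W' x).im) * ∑ y, (-(W' y).im) * ‖M' x y‖ ^ 2 := E1
    _ ≤ ∑ x, (-(W' x).im) * (c * ∑ y, (-(W y).im) * ‖M1 x y‖ ^ 2) :=
        Finset.sum_le_sum fun x _ => mul_le_mul_of_nonneg_left (col2 x) (by linarith [hW' x])
    _ = c * ∑ x, (-(W' x).im) * ∑ y, (-(W y).im) * ‖M1 x y‖ ^ 2 := by
        rw [Finset.mul_sum]
        exact Finset.sum_congr rfl fun x _ => by ring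
    _ = c * ∑ y, (-(W y).im) * ∑ x, (-(W' x).im) * ‖M1 x y‖ ^ 2 := by rw [E2]
    _ ≤ c * ∑ y, (-(W y).im) * (c * ∑ x, (-(W x).im) * ‖M x y‖ ^ 2) :=
        mul_le_mul_of_nonneg_left (Finset.sum_le_sum fun y _ =>
          mul_le_mul_of_nonneg_left (col1 y) (by linarith [hW y])) hc0
    _ = c ^ 2 * En A W f := by
        rw [En_eq, ← hM]
        have e4 : ∀ y, (-(W y).im) * (c * ∑ x, (-(W x).im) * ‖M x y‖ ^ 2) =
            c * ((-(W y).im) * ∑ x, (-(W x).im) * ‖M x y‖ ^ 2) := fun y => by ring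
        simp only [e4, ← Finset.mul_sum]
        ring

/-- change of the absorptions by factors in `[θ, 1/θ]` -/
theorem En_cmp_abs (hA : A.IsSymm) (hW : ∀ x, (W x).im < 0) {θ : ℝ} (hθ : 0 < θ)
    (hre : ∀ x, (W' x).re = (W x).re) (h1 : ∀ x, (W' x).im ≤ θ * (W x).im)
    (h2 : ∀ x, (W x).im ≤ θ * (W' x).im) (f : ι → ℝ) :
    En A W' f ≤ (2 / θ) ^ 2 * En A W f := by
  have hW' : ∀ x, (W' x).im < 0 := fun x =>
    (h1 x).trans_lt (mul_neg_of_pos_of_neg hθ (hW x))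
  refine En_cmp hA hW hW' (fun x => ?_) (by positivity) f
  rw [hre x, sub_self]
  have a := hW x
  have b := hW' x
  have c1 := h1 x
  have c2 := h2 x
  have e1 : (W x).im ^ 2 ≤ (1 / θ) * ((W x).im * (W' x).im) := by
    rw [div_mul_eq_mul_div, le_div_iff₀ hθ]
    nlinarith
  have e2 : (W' x).im ^ 2 ≤ (1 / θ) * ((W x).im * (W' x).im) := by
    rw [div_mul_eq_mul_div, le_div_iff₀ hθ]
    nlinarith
  have e3 : 2 / θ * ((W x).im * (W' x).im) = (1 / θ) * ((W x).im * (W' x).im) +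
      (1 / θ) * ((W x).im * (W' x).im) := by ring
  rw [e3]
  nlinarith

end P365H763
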